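import Vale.Agent.P166.Haar2.Atoms.Facts
import Vale.Agent.P166.Haar2.Atoms.Transform
import Vale.Agent.P166.Haar2.Algebra.Facts
import Vale.Agent.P166.Haar2.Algebra.Stable
import Vale.Agent.P166.Haar2.Compr.Main
import Vale.Agent.P166.Haar2.Paths.Main
import Vale.Agent.P166.Haar2.Fluct.Fluct
import Vale.Agent.P166.Haar2.Fluct.PertShape
import Vale.Agent.P166.Haar2.Fluct.Taylor
import Vale.Agent.P166.Haar2.GG.Main
import Vale.Agent.P166.Haar2.Tree.Main
import Vale.Agent.P166.Haar2.Struct.Main
import Vale.Agent.P166.Haar2.Slots.Main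
import Vale.Agent.P166.Haar2.CascValue.Main
import Vale.Agent.P166.Haar2.SiteTaylor.Main
import Vale.Agent.P166.Haar2.Cavity.Demote
import Vale.Agent.P166.Haar2.Upper.Main
import Vale.Agent.P166.Haar2.Lower.Base
import Vale.Agent.P166.Haar2.Lower.Count
import Vale.Agent.P166.Haar2.Lower.Growth
import Vale.Agent.P166.Haar2.Lower.Compare
import Vale.Agent.P166.Haar2.Final.Main

/-!
The modules composed: the formula from the rotation identity, the deviation bounds and the lower
bound.
-/

noncomputable section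

open MeasureTheory Filter
open scoped BigOperators Topology

namespace Vale.Agent.P166.Haar2.Assembly

theorem blocks : BlockFactsStmt := Algebra.blockFacts atomFacts

theorem structure_of (hRot : RotStmt) : StructStmt :=
  struct hRot (GG.gg fluct) tree (Algebra.stable atomFacts) blocks

theorem upper_of (hRot : RotStmt) (hSD : SlotDevStmt) : UpperStmt :=
  Upper.upper Slots.slotTrunc Slots.slotStep hSD pertShape (structure_of hRot) blocks
    (Paths.funA atomFacts) (Paths.funTime atomFacts)

theorem base_of (hRot : RotStmt) (hD : DevStmt) : BaseStmt :=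
  base Cavity.promote_bound hD pertShape (structure_of hRot)

/-- Labellings with fractions tending to the weights. -/
theorem exists_labels {K : ℕ} (A : Atoms K) :
    ∃ w : (n : ℕ) → Fin n → Fin (K + 1),
      ∀ k, Tendsto (fun n => frac (w n) k) atTop (𝓝 (A.c k)) := by
  classical
  have hne : ∀ n : ℕ, ∃ w : Fin n → Fin (K + 1), ∀ w' : Fin n → Fin (K + 1),
      (∑ k, |frac w k - A.c k|) ≤ ∑ k, |frac w' k - A.c k| := fun n => by
    obtain ⟨w, -, hw⟩ := Finset.exists_min_image Finset.univ
      (fun w : Fin n → Fin (K + 1) => ∑ k, |frac w k - A.c k|) Finset.univ_nonempty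
    exact ⟨w, fun w' => hw w' (Finset.mem_univ _)⟩
  choose w hw using hne
  refine ⟨w, fun k => Metric.tendsto_nhds.2 fun ε hε => ?_⟩
  set η := min 1 (ε / (2 * ((K : ℝ) + 1)))
  have hη : 0 < η := lt_min one_pos (by positivity)
  have h0 := (tendsto_mul_badWt (fun k => (A.pos k).le) A.sum_one hη (min_le_left _ _)).eventually
    (gt_mem_nhds (show (0 : ℝ) < 1 by norm_num))
  filter_upwards [h0] with n hn
  have hex : (goodSet A.c η n).Nonempty := by
    rw [Finset.nonempty_iff_ne_empty]
    intro he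
    have h := good_add_bad A.sum_one η n
    rw [he, Finset.sum_empty, zero_add] at h
    rw [h] at hn
    nlinarith [(Nat.cast_nonneg n : (0 : ℝ) ≤ n)]
  obtain ⟨w', hw'⟩ := hex
  rw [mem_goodSet] at hw'
  have h1 : |frac (w n) k - A.c k| ≤ ((K : ℝ) + 1) * η := by
    refine le_trans (Finset.single_le_sum (f := fun k => |frac (w n) k - A.c k|)
      (fun k _ => abs_nonneg _) (Finset.mem_univ k)) ((hw n w').trans ?_)
    refine (Finset.sum_le_sum fun k _ => hw' k).trans_eq ?_
    simp
  have h2 : ((K : ℝ) + 1) * η ≤ ε / 2 := by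
    refine (mul_le_mul_of_nonneg_left (min_le_right _ _) (by positivity)).trans_eq ?_
    field_simp
  rw [Real.dist_eq]
  linarith

theorem atoms_of (hRot : RotStmt) (hSD : SlotDevStmt) (hL : LowerStmt) : AtomsFormulaStmt := by
  intro K A
  obtain ⟨w₀, hw₀⟩ := exists_labels A
  have hU := upper_of hRot hSD
  obtain ⟨B, hB⟩ : ∃ B, ∀ (n : ℕ), 0 < n → ∀ w : Fin n → Fin (K + 1),
      |meanP 1 (fun i => A.a (w i))| ≤ B :=
    ⟨(∑ k, |A.a k|) / 2, fun n hn w => abs_labP_le A.a hn w⟩
  have hbd : BddBelow A.upperValuesA := by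
    refine ⟨-B - 1, fun v hv => ?_⟩
    obtain ⟨n, hn, hn0⟩ := ((hU K A (fun n => n) w₀ tendsto_id hw₀ v hv 1 one_pos).and
      (eventually_gt_atTop 0)).exists
    linarith [(abs_le.1 (hB n hn0 (w₀ n))).1]
  have hne : A.upperValuesA.Nonempty := by
    obtain ⟨n, v, hv, -⟩ := (hL K A (fun n => n) w₀ tendsto_id hw₀ 1 one_pos).exists
    exact ⟨v, hv⟩
  refine ⟨hne, hbd, fun N w hN hw => Metric.tendsto_nhds.2 fun ε hε => ?_⟩
  obtain ⟨v, hv, hvlt⟩ := exists_lt_of_csInf_lt hne
    (show sInf A.upperValuesA < sInf A.upperValuesA + ε / 4 by linarith)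
  filter_upwards [hU K A N w hN hw v hv (ε / 4) (by linarith),
    hL K A N w hN hw (ε / 4) (by linarith)] with j h1 h2
  obtain ⟨v', hv', h3⟩ := h2
  have h4 := csInf_le hbd hv'
  rw [Real.dist_eq, abs_lt]
  constructor <;> linarith

/-- The formula from what is left. -/
theorem final_of (hRot : RotStmt) (hSD : SlotDevStmt) (hL : LowerStmt) : FinalStmt :=
  final (atoms_of hRot hSD hL) transform


end Vale.Agent.P166.Haar2.Assembly
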